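import Vale.Agent.P258.Bdl.B1

/-!
The slopes `2` and `-2` are not cosmetic, for the satellites of every companion knot `J` with an
explicit genus-two pattern of winding number zero, and with every framing `f ≡ 2 mod 3`.
-/

namespace Vale.Agent.Results.P258.SatelliteFamily

open Vale.Agent.P258

/-- For every knot diagram `J` and every `f ≡ 2 mod 3`, the fundamental groups of the surgeries
of slopes `2` and `-2` on the `f`-twisted satellite of `J` with the given pattern are not
isomorphic. -/
theorem result (J : Diagram) (hJ : J.IsKnot) (j : Fin J.n) (f : ℤ) (hf : f % 3 = 2) :
    IsEmpty (PresentedGroup (satelliteRelators pattern J patternK patternE j f 2) ≃*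
      PresentedGroup (satelliteRelators pattern J patternK patternE j f (-2))) :=
  main J hJ j f hf

end Vale.Agent.Results.P258.SatelliteFamily
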